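import Mathlib

/-!
P219: a bounded measurable function whose distributional gradient vanishes on a connected open set
is almost everywhere constant there.
-/

open MeasureTheory Set Filter Topology Metric
open scoped ContDiff Convolution

namespace Vale.Agent.P219.Co

namespace AeConst

variable {n : ℕ}

/-- A bump at `0` with radii `d / 2` and `d`. -/
noncomputable def bp (n : ℕ) (d : ℝ) (hd : 0 < d) : ContDiffBump (0 : EuclideanSpace ℝ (Fin n)) where
  rIn := d / 2
  rOut := d
  rIn_pos := by positivity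
  rIn_lt_rOut := by linarith

/-- The mollification. -/
noncomputable def mo (u : EuclideanSpace ℝ (Fin n) → ℝ) (d : ℝ) (hd : 0 < d) :
    EuclideanSpace ℝ (Fin n) → ℝ :=
  ((bp n d hd).normed volume) ⋆[ContinuousLinearMap.lsmul ℝ ℝ, volume] u

lemma clm_zero (L : EuclideanSpace ℝ (Fin n) →L[ℝ] ℝ)
    (h : ∀ i : Fin n, L (EuclideanSpace.single i 1) = 0) : L = 0 := by
  have : (L : EuclideanSpace ℝ (Fin n) →ₗ[ℝ] ℝ) = 0 := by
    apply (EuclideanSpace.basisFun (Fin n) ℝ).toBasis.ext
    intro i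
    simpa using h i
  ext x
  exact congrArg (fun M : EuclideanSpace ℝ (Fin n) →ₗ[ℝ] ℝ => M x) this

lemma locInt {u : EuclideanSpace ℝ (Fin n) → ℝ} (hu : Measurable u) (hub : ∀ x, |u x| ≤ 1) :
    LocallyIntegrable u volume := by
  intro x
  refine ⟨closedBall x 1, closedBall_mem_nhds x one_pos, ?_⟩
  refine Measure.integrableOn_of_bounded (M := 1)
    (isCompact_closedBall x 1).measure_lt_top.ne hu.aestronglyMeasurable ?_
  exact Filter.Eventually.of_forall fun y => by simpa [Real.norm_eq_abs] using hub y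

lemma mo_fderiv {u : EuclideanSpace ℝ (Fin n) → ℝ} (hu : Measurable u) (hub : ∀ x, |u x| ≤ 1)
    {Ω : Set (EuclideanSpace ℝ (Fin n))}
    (h : ∀ w : EuclideanSpace ℝ (Fin n) → ℝ, ContDiff ℝ ∞ w → HasCompactSupport w →
      tsupport w ⊆ Ω → ∀ i : Fin n, ∫ x, u x * fderiv ℝ w x (EuclideanSpace.single i 1) = 0)
    {d : ℝ} (hd : 0 < d) {x : EuclideanSpace ℝ (Fin n)} (hx : closedBall x d ⊆ Ω) :
    HasFDerivAt (mo u d hd) (0 : EuclideanSpace ℝ (Fin n) →L[ℝ] ℝ) x := by
  set φ := bp n d hd with hφ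
  set f : EuclideanSpace ℝ (Fin n) → ℝ := φ.normed volume with hf
  have hfc : ContDiff ℝ ∞ f := φ.contDiff_normed
  have hfs : HasCompactSupport f := φ.hasCompactSupport_normed
  have hli := locInt hu hub
  have key := hfs.hasFDerivAt_convolution_left (ContinuousLinearMap.lsmul ℝ ℝ) (μ := volume)
    (hfc.of_le (by norm_num)) hli x
  have hz : (fderiv ℝ f ⋆[(ContinuousLinearMap.lsmul ℝ ℝ).precompL (EuclideanSpace ℝ (Fin n)),
      volume] u) x = 0 := by
    apply clm_zero
    intro i
    have hex := (hfs.fderiv (𝕜 := ℝ)).convolutionExists_left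
      ((ContinuousLinearMap.lsmul ℝ ℝ).precompL (EuclideanSpace ℝ (Fin n))) (μ := volume)
      (hfc.continuous_fderiv (by norm_num)) hli x
    have e1 : ((fderiv ℝ f ⋆[(ContinuousLinearMap.lsmul ℝ ℝ).precompL
        (EuclideanSpace ℝ (Fin n)), volume] u) x) (EuclideanSpace.single i 1) =
        ∫ t, fderiv ℝ f t (EuclideanSpace.single i 1) * u (x - t) := by
      rw [convolution_def, ContinuousLinearMap.integral_apply hex]
      rfl
    have e2 : ∫ t, fderiv ℝ f t (EuclideanSpace.single i 1) * u (x - t) =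
        ∫ y, fderiv ℝ f (x - y) (EuclideanSpace.single i 1) * u y := by
      rw [← integral_sub_left_eq_self (fun t =>
        fderiv ℝ f t (EuclideanSpace.single i 1) * u (x - t)) volume x]
      simp only [sub_sub_cancel]
    set w : EuclideanSpace ℝ (Fin n) → ℝ := fun y => f (x - y) with hw
    have hwc : ContDiff ℝ ∞ w := hfc.comp (contDiff_const.sub contDiff_id)
    have hwt : tsupport w ⊆ closedBall x d := by
      refine closure_minimal ?_ isClosed_closedBall
      intro y hy
      have h1 : x - y ∈ Function.support f := hy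
      rw [hf, φ.support_normed_eq] at h1
      have h2 : ‖x - y‖ < d := by simpa [hφ, bp] using h1
      rw [mem_closedBall, dist_comm, dist_eq_norm]
      exact h2.le
    have hws : HasCompactSupport w :=
      (isCompact_closedBall x d).of_isClosed_subset (isClosed_tsupport w) hwt
    have hwd : ∀ y, fderiv ℝ w y (EuclideanSpace.single i 1) =
        - fderiv ℝ f (x - y) (EuclideanSpace.single i 1) := by
      intro y
      have h1 : HasFDerivAt f (fderiv ℝ f (x - y)) (x - y) :=
        ((hfc.differentiable (by norm_num)) (x - y)).hasFDerivAt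
      have h2 : HasFDerivAt (fun y : EuclideanSpace ℝ (Fin n) => x - y)
          (-(ContinuousLinearMap.id ℝ (EuclideanSpace ℝ (Fin n)))) y :=
        (hasFDerivAt_id y).const_sub x
      have h3 := h1.comp y h2
      have h4 : HasFDerivAt w ((fderiv ℝ f (x - y)).comp
        (-(ContinuousLinearMap.id ℝ (EuclideanSpace ℝ (Fin n))))) y := h3
      rw [h4.fderiv]
      simp
    have h0 := h w hwc hws (hwt.trans hx) i
    rw [e1, e2]
    have e3 : ∫ y, fderiv ℝ f (x - y) (EuclideanSpace.single i 1) * u y =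
        - ∫ y, u y * fderiv ℝ w y (EuclideanSpace.single i 1) := by
      rw [← integral_neg]
      refine integral_congr_ae (Filter.Eventually.of_forall fun y => ?_)
      simp only [hwd]
      ring
    rw [e3, h0, neg_zero]
  rw [hz] at key
  exact key

/-- Local version: on a ball whose double lies in `Ω` the function is a.e. constant. -/
lemma loc {u : EuclideanSpace ℝ (Fin n) → ℝ} (hu : Measurable u) (hub : ∀ x, |u x| ≤ 1)
    {Ω : Set (EuclideanSpace ℝ (Fin n))}
    (h : ∀ w : EuclideanSpace ℝ (Fin n) → ℝ, ContDiff ℝ ∞ w → HasCompactSupport w →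
      tsupport w ⊆ Ω → ∀ i : Fin n, ∫ x, u x * fderiv ℝ w x (EuclideanSpace.single i 1) = 0)
    {ε : ℝ} (hε : 0 < ε) {x₀ : EuclideanSpace ℝ (Fin n)} (hx : ball x₀ (2 * ε) ⊆ Ω) :
    ∃ a : ℝ, ∀ᵐ x ∂volume, x ∈ ball x₀ ε → u x = a := by
  have hd : ∀ k : ℕ, (0 : ℝ) < ε / (k + 2) := fun k => by positivity
  have hli := locInt hu hub
  have hae : ∀ᵐ x ∂(volume : Measure (EuclideanSpace ℝ (Fin n))),
      Tendsto (fun k : ℕ => mo u (ε / (k + 2)) (hd k) x) atTop (𝓝 (u x)) := by
    have := ContDiffBump.ae_convolution_tendsto_right_of_locallyIntegrable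
      (μ := (volume : Measure (EuclideanSpace ℝ (Fin n))))
      (φ := fun k : ℕ => bp n (ε / (k + 2)) (hd k)) (l := atTop) (K := 2) (g := u) ?_ ?_ hli
    · exact this
    · have h1 : Tendsto (fun k : ℕ => ε / ((k : ℝ) + 2)) atTop (𝓝 0) := by
        apply Tendsto.div_atTop tendsto_const_nhds
        exact tendsto_atTop_add_const_right _ _ tendsto_natCast_atTop_atTop
      exact h1
    · refine Filter.Eventually.of_forall fun k => ?_
      simp only [bp]
      linarith [hd k]
  have hcon : ∀ k : ℕ, ∃ c : ℝ, ∀ x ∈ ball x₀ ε, mo u (ε / (k + 2)) (hd k) x = c := by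
    intro k
    have hk : ε / ((k : ℝ) + 2) ≤ ε / 2 := by
      apply div_le_div_of_nonneg_left hε.le two_pos
      have : (0 : ℝ) ≤ k := Nat.cast_nonneg k
      linarith
    have hder : ∀ x ∈ ball x₀ ε, HasFDerivAt (mo u (ε / (k + 2)) (hd k))
        (0 : EuclideanSpace ℝ (Fin n) →L[ℝ] ℝ) x := by
      intro x hx'
      apply mo_fderiv hu hub h
      refine Subset.trans ?_ hx
      intro y hy
      rw [mem_closedBall] at hy
      rw [mem_ball] at hx' ⊢
      have := dist_triangle y x x₀
      linarith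
    refine (isOpen_ball).exists_is_const_of_fderiv_eq_zero (𝕜 := ℝ)
      (convex_ball x₀ ε).isPreconnected ?_ ?_
    · intro x hx'
      exact (hder x hx').differentiableAt.differentiableWithinAt
    · intro x hx'
      exact (hder x hx').fderiv
  choose c hc using hcon
  by_cases hne : ∃ x ∈ ball x₀ ε, Tendsto (fun k : ℕ => mo u (ε / (k + 2)) (hd k) x) atTop
      (𝓝 (u x))
  · obtain ⟨x₁, hx₁, ht₁⟩ := hne
    refine ⟨u x₁, ?_⟩
    filter_upwards [hae] with x hxt hxb
    have h1 : Tendsto c atTop (𝓝 (u x)) := by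
      refine hxt.congr fun k => ?_
      exact hc k x hxb
    have h2 : Tendsto c atTop (𝓝 (u x₁)) := by
      refine ht₁.congr fun k => ?_
      exact hc k x₁ hx₁
    exact tendsto_nhds_unique h1 h2
  · refine ⟨0, ?_⟩
    filter_upwards [hae] with x hxt hxb
    exact absurd ⟨x, hxb, hxt⟩ hne

end AeConst

open AeConst in
/-- **Constancy theorem**: distributional gradient zero on a connected open set implies almost
everywhere constant. -/
theorem ae_const {n : ℕ} {u : EuclideanSpace ℝ (Fin n) → ℝ} (hu : Measurable u)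
    (hub : ∀ x, |u x| ≤ 1) {Ω : Set (EuclideanSpace ℝ (Fin n))} (hΩ : IsOpen Ω)
    (hc : IsPreconnected Ω)
    (h : ∀ w : EuclideanSpace ℝ (Fin n) → ℝ, ContDiff ℝ ∞ w → HasCompactSupport w →
      tsupport w ⊆ Ω → ∀ i : Fin n, ∫ x, u x * fderiv ℝ w x (EuclideanSpace.single i 1) = 0) :
    ∃ a : ℝ, ∀ᵐ x ∂(volume.restrict Ω), u x = a := by
  have hloc : ∀ x ∈ Ω, ∃ ε : ℝ, 0 < ε ∧ ball x ε ⊆ Ω ∧
      ∃ a : ℝ, ∀ᵐ y ∂(volume : Measure (EuclideanSpace ℝ (Fin n))), y ∈ ball x ε → u y = a := by
    intro x hx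
    obtain ⟨r, hr, hrb⟩ := Metric.isOpen_iff.1 hΩ x hx
    refine ⟨r / 2, by positivity, (ball_subset_ball (by linarith)).trans hrb, ?_⟩
    refine loc hu hub h (by positivity) ?_
    have : 2 * (r / 2) = r := by ring
    rw [this]
    exact hrb
  choose! ε hε hεΩ a ha using hloc
  have hstep : ∀ x ∈ Ω, ∀ y ∈ Ω, y ∈ ball x (ε x) → a x = a y := by
    intro x hx y hy hyx
    by_contra hne
    have hpos : 0 < volume (ball x (ε x) ∩ ball y (ε y)) :=
      (isOpen_ball.inter isOpen_ball).measure_pos _ ⟨y, hyx, mem_ball_self (hε y hy)⟩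
    have hnull : volume (ball x (ε x) ∩ ball y (ε y)) = 0 := by
      have h1 : ∀ᵐ z ∂(volume : Measure (EuclideanSpace ℝ (Fin n))),
          ¬ (z ∈ ball x (ε x) ∩ ball y (ε y)) := by
        filter_upwards [ha x hx, ha y hy] with z h2 h3 h4
        exact hne ((h2 h4.1).symm.trans (h3 h4.2))
      have := measure_eq_zero_iff_ae_notMem.2 h1
      exact this
    exact hpos.ne' hnull
  rcases Ω.eq_empty_or_nonempty with he | ⟨x₀, hx₀⟩
  · refine ⟨0, ?_⟩
    rw [he]
    simp
  · have hall : ∀ x ∈ Ω, a x = a x₀ := by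
      intro x hx
      refine hc.induction₂' (fun y z => a y = a z) ?_ ?_ hx hx₀
      · intro y hy
        have : ball y (ε y) ∈ 𝓝[Ω] y := mem_nhdsWithin_of_mem_nhds (ball_mem_nhds y (hε y hy))
        filter_upwards [this, self_mem_nhdsWithin] with z hz hzΩ
        exact ⟨hstep y hy z hzΩ hz, (hstep y hy z hzΩ hz).symm⟩
      · intro p q r _ _ _ h1 h2
        exact h1.trans h2
    refine ⟨a x₀, ?_⟩
    rw [ae_restrict_iff' hΩ.measurableSet]
    have hnull : volume {x : EuclideanSpace ℝ (Fin n) | x ∈ Ω ∧ u x ≠ a x₀} = 0 := by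
      apply measure_null_of_locally_null
      rintro x ⟨hx, -⟩
      refine ⟨ball x (ε x) ∩ {x | x ∈ Ω ∧ u x ≠ a x₀}, ?_, ?_⟩
      · exact inter_mem (mem_nhdsWithin_of_mem_nhds (ball_mem_nhds x (hε x hx)))
          self_mem_nhdsWithin
      · refine measure_eq_zero_iff_ae_notMem.2 ?_
        filter_upwards [ha x hx] with z hz hz'
        exact hz'.2.2 ((hz hz'.1).trans (hall x hx))
    have := measure_eq_zero_iff_ae_notMem.1 hnull
    filter_upwards [this] with x hx hxΩ
    by_contra hne
    exact hx ⟨hxΩ, hne⟩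

end Vale.Agent.P219.Co
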