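import Vale.Agent.P219.H817.T13

open MeasureTheory Set Filter Topology Matrix
open scoped ENNReal NNReal ContDiff

noncomputable section

namespace Vale.Agent.P219.Co

variable {n : ℕ}

/-- Integration by parts against a smooth compactly supported function. -/
theorem parts_c1 {h : E n → ℝ} (hh : ContDiff ℝ 1 h) (hcs : HasCompactSupport h)
    {w : E n → ℝ} (hw : ContDiff ℝ ∞ w) (hwc : HasCompactSupport w) (i : Fin n) :
    ∫ x, h x * pd i w x ∂leb n = -∫ x, pd i h x * w x ∂leb n := by
  have := leb_compacts n
  have hhd : Differentiable ℝ h := hh.differentiable one_ne_zero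
  have hwd : Differentiable ℝ w := hw.differentiable (by simp)
  have hpc : Continuous (pd i w) := (pd_contDiff hw i).continuous
  have hpj : Continuous fun x => pd i h x := by
    have e1 : (fun x => pd i h x) = fun x => fderiv ℝ h x (basisVec i) :=
      funext fun x => pd_eq (hhd x) i
    rw [e1]
    exact (hh.continuous_fderiv one_ne_zero).clm_apply continuous_const
  have h2 : ∀ x, pd i w x = fderiv ℝ w x (basisVec i) := fun x => pd_eq (hwd x) i
  have h3 : ∀ x, pd i h x = fderiv ℝ h x (basisVec i) := fun x => pd_eq (hhd x) i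
  simp only [h2, h3]
  unfold leb
  refine integral_mul_fderiv_eq_neg_fderiv_mul_of_integrable ?_ ?_ ?_ (fun x _ => hhd x)
    fun x _ => hwd x
  · have : (fun x => fderiv ℝ h x (basisVec i) * w x) = fun x => pd i h x * w x := by
      funext x
      rw [h3]
    rw [this]
    exact (hpj.mul hw.continuous).integrable_of_hasCompactSupport hwc.mul_left
  · have : (fun x => h x * fderiv ℝ w x (basisVec i)) = fun x => h x * pd i w x := by
      funext x
      rw [h2]
    rw [this]
    exact (hh.continuous.mul hpc).integrable_of_hasCompactSupport hcs.mul_right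
  · exact (hh.continuous.mul hw.continuous).integrable_of_hasCompactSupport
      hcs.mul_right

/-- `∫ h div X dvol ≤ ∫ |dh| dvol` for a test field `X`. -/
theorem test_le_gradMass (M : RiemMetric n) {X : E n → Fin n → ℝ} (hX : TestField M X)
    {h : E n → ℝ} (hh : ContDiff ℝ 1 h) (hcs : HasCompactSupport h) :
    ENNReal.ofReal (∫ x, h x * (divg M X x * volDensity M x) ∂leb n) ≤ gradMass M h := by
  have := leb_compacts n
  set w : Fin n → E n → ℝ := fun i x => volDensity M x * X x i with hw
  have hws : ∀ i, ContDiff ℝ ∞ (w i) := fun i => (volDensity_contDiff M).mul (hX.smooth i)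
  have hwc : ∀ i, HasCompactSupport (w i) := fun i => by
    refine HasCompactSupport.intro hX.compact.isCompact fun x hx => ?_
    have h1 : X x = 0 := image_eq_zero_of_notMem_tsupport hx
    simp only [hw]
    rw [h1, Pi.zero_apply, mul_zero]
  have hhd : Differentiable ℝ h := hh.differentiable one_ne_zero
  have hpj : ∀ i, Continuous fun x => pd i h x := fun i => by
    have e1 : (fun x => pd i h x) = fun x => fderiv ℝ h x (basisVec i) :=
      funext fun x => pd_eq (hhd x) i
    rw [e1]
    exact (hh.continuous_fderiv one_ne_zero).clm_apply continuous_const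
  have hdiv : ∀ x, divg M X x * volDensity M x = ∑ i, pd i (w i) x := by
    intro x
    unfold divg
    have := (volDensity_pos M x).ne'
    field_simp
    rfl
  have hint : ∀ i, Integrable (fun x => h x * pd i (w i) x) (leb n) := fun i =>
    (hh.continuous.mul (pd_contDiff (hws i) i).continuous).integrable_of_hasCompactSupport
      hcs.mul_right
  have hint2 : ∀ i, Integrable (fun x => pd i h x * w i x) (leb n) := fun i =>
    ((hpj i).mul (hws i).continuous).integrable_of_hasCompactSupport (hwc i).mul_left
  have h1 : ∫ x, h x * (divg M X x * volDensity M x) ∂leb n =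
      ∫ x, -∑ i, pd i h x * w i x ∂leb n := by
    simp only [hdiv, Finset.mul_sum]
    rw [integral_finsetSum _ fun i _ => hint i]
    simp only [parts_c1 hh hcs (hws _) (hwc _)]
    rw [Finset.sum_neg_distrib, integral_neg, integral_finsetSum _ fun i _ => hint2 i]
  rw [h1]
  have hsi : Integrable (fun x => -∑ i, pd i h x * w i x) (leb n) :=
    (integrable_finsetSum _ fun i _ => hint2 i).neg
  have h2 : ∫ x, -∑ i, pd i h x * w i x ∂leb n ≤
      (∫⁻ x, ENNReal.ofReal |(-∑ i, pd i h x * w i x)| ∂leb n).toReal := by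
    rw [← integral_eq_lintegral_of_nonneg_ae (Eventually.of_forall fun x => abs_nonneg _)
      hsi.abs.aestronglyMeasurable]
    exact (le_abs_self _).trans abs_integral_le_integral_abs
  refine (ENNReal.ofReal_le_ofReal h2).trans (ENNReal.ofReal_toReal_le.trans ?_)
  refine lintegral_mono fun x => ENNReal.ofReal_le_ofReal ?_
  have h3 := dot_le M x (X x) (fun i => pd i h x)
  have h4 : √(X x ⬝ᵥ M.g x *ᵥ X x) ≤ 1 := by
    rw [Real.sqrt_le_one]
    exact hX.le_one x
  have h5 : -∑ i, pd i h x * w i x = -(volDensity M x * (X x ⬝ᵥ fun i => pd i h x)) := by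
    simp only [dotProduct, hw, Finset.mul_sum]
    congr 1
    refine Finset.sum_congr rfl fun i _ => ?_
    ring
  rw [h5, abs_neg, abs_mul, abs_of_pos (volDensity_pos M x), mul_comm]
  refine mul_le_mul_of_nonneg_right (h3.trans ?_) (volDensity_pos M x).le
  calc √(X x ⬝ᵥ M.g x *ᵥ X x) * √((fun i => pd i h x) ⬝ᵥ (M.g x)⁻¹ *ᵥ fun i => pd i h x)
      ≤ 1 * √((fun i => pd i h x) ⬝ᵥ (M.g x)⁻¹ *ᵥ fun i => pd i h x) :=
        mul_le_mul_of_nonneg_right h4 (Real.sqrt_nonneg _)
    _ = gradNorm M h x := by rw [one_mul]; rfl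

/-- Lower semicontinuity of the perimeter. -/
theorem perimeter_le_of_lim (M : RiemMetric n) {S : Set (E n)} (hS : MeasurableSet S)
    {h : ℕ → E n → ℝ} (hh : ∀ j, ContDiff ℝ 1 (h j)) (hcs : ∀ j, HasCompactSupport (h j))
    (hd : Tendsto (fun j => ∫⁻ x, ENNReal.ofReal
      (|h j x - S.indicator (fun _ => (1 : ℝ)) x| * volDensity M x) ∂leb n) atTop (𝓝 0))
    {P : ℝ≥0∞} (hP : ∀ δ : ℝ, 0 < δ → ∀ᶠ j in atTop, gradMass M (h j) ≤ P + ENNReal.ofReal δ) :
    perimeter M S ≤ P := by
  have := leb_compacts n
  refine iSup₂_le fun X hX => ?_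
  set W : E n → ℝ := fun x => divg M X x * volDensity M x with hW
  have hWs : ∀ i, ContDiff ℝ ∞ fun x => volDensity M x * X x i := fun i =>
    (volDensity_contDiff M).mul (hX.smooth i)
  have hWe : W = fun x => ∑ i, pd i (fun y => volDensity M y * X y i) x := by
    funext x
    simp only [hW]
    unfold divg
    have := (volDensity_pos M x).ne'
    field_simp
  have hWc : Continuous W := by
    rw [hWe]
    exact continuous_finsetSum _ fun i _ => (pd_contDiff (hWs i) i).continuous
  have hWk : HasCompactSupport W := by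
    refine HasCompactSupport.intro hX.compact.isCompact fun x hx => ?_
    rw [hWe]
    refine Finset.sum_eq_zero fun i _ => ?_
    refine pd_zero_of (isClosed_tsupport X) (fun y hy => ?_) i hx
    have h1 : X y = 0 := image_eq_zero_of_notMem_tsupport hy
    rw [h1, Pi.zero_apply, mul_zero]
  obtain ⟨C, hC⟩ : ∃ C, ∀ x, ‖W x / volDensity M x‖ ≤ C := by
    refine Continuous.bounded_above_of_compact_support
      (hWc.div (volDensity_cont M) fun x => (volDensity_pos M x).ne') ?_
    refine HasCompactSupport.intro hWk.isCompact fun x hx => ?_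
    rw [image_eq_zero_of_notMem_tsupport hx, zero_div]
  have hC0 : 0 ≤ C := (norm_nonneg _).trans (hC 0)
  set u : E n → ℝ := S.indicator (fun _ => (1 : ℝ)) with hu
  have e1 : (fun x => u x * W x) = S.indicator W := by
    funext x
    by_cases hx : x ∈ S
    · rw [hu, indicator_of_mem hx, indicator_of_mem hx, one_mul]
    · rw [hu, indicator_of_notMem hx, indicator_of_notMem hx, zero_mul]
  have hui : Integrable (fun x => u x * W x) (leb n) := by
    rw [e1]
    exact (hWc.integrable_of_hasCompactSupport hWk).indicator hS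
  have hhi : ∀ j, Integrable (fun x => h j x * W x) (leb n) := fun j =>
    ((hh j).continuous.mul hWc).integrable_of_hasCompactSupport (hcs j).mul_right
  have hval : ∫ x in S, W x ∂leb n = ∫ x, u x * W x ∂leb n := by
    rw [e1, integral_indicator hS]
  have hdiff : ∀ j : ℕ, ENNReal.ofReal
      |∫ x, u x * W x ∂leb n - ∫ x, h j x * W x ∂leb n| ≤
      ENNReal.ofReal C * ∫⁻ x, ENNReal.ofReal
      (|h j x - u x| * volDensity M x) ∂leb n := by
    intro j
    rw [← integral_sub hui (hhi j)]
    have e2 : ∫ x, |u x * W x - h j x * W x| ∂leb n =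
        (∫⁻ x, ENNReal.ofReal |u x * W x - h j x * W x| ∂leb n).toReal :=
      integral_eq_lintegral_of_nonneg_ae (Eventually.of_forall fun x => abs_nonneg _)
        ((hui.sub (hhi j)).abs.aestronglyMeasurable)
    refine (ENNReal.ofReal_le_ofReal abs_integral_le_integral_abs).trans ?_
    rw [e2]
    refine ENNReal.ofReal_toReal_le.trans ?_
    rw [← lintegral_const_mul' _ _ ENNReal.ofReal_ne_top]
    refine lintegral_mono fun x => ?_
    rw [← ENNReal.ofReal_mul hC0]
    refine ENNReal.ofReal_le_ofReal ?_
    rw [← sub_mul, abs_mul, abs_sub_comm]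
    have h8 := hC x
    rw [norm_div, Real.norm_eq_abs, Real.norm_eq_abs, abs_of_pos (volDensity_pos M x),
      div_le_iff₀ (volDensity_pos M x)] at h8
    calc |h j x - u x| * |W x| ≤ |h j x - u x| * (C * volDensity M x) :=
          mul_le_mul_of_nonneg_left h8 (abs_nonneg _)
      _ = C * (|h j x - u x| * volDensity M x) := by ring
  have hz : Tendsto (fun j => ENNReal.ofReal
      |∫ x, u x * W x ∂leb n - ∫ x, h j x * W x ∂leb n|) atTop (𝓝 0) := by
    refine tendsto_of_tendsto_of_tendsto_of_le_of_le tendsto_const_nhds ?_ (fun j => zero_le)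
      hdiff
    have h9 := ENNReal.Tendsto.const_mul (a := ENNReal.ofReal C) hd
      (Or.inr ENNReal.ofReal_ne_top)
    rwa [mul_zero] at h9
  have hlim : Tendsto (fun j => ∫ x, h j x * W x ∂leb n) atTop (𝓝 (∫ x, u x * W x ∂leb n)) := by
    have h9 := (ENNReal.tendsto_toReal ENNReal.zero_ne_top).comp hz
    have h10 : Tendsto (fun j => |∫ x, u x * W x ∂leb n - ∫ x, h j x * W x ∂leb n|) atTop
        (𝓝 0) := by
      refine h9.congr fun j => ?_
      simp only [Function.comp_apply]
      rw [ENNReal.toReal_ofReal (abs_nonneg _)]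
    have h11 := (tendsto_zero_iff_abs_tendsto_zero _).2 h10
    have h12 := (tendsto_const_nhds (x := ∫ x, u x * W x ∂leb n)).sub h11
    rw [sub_zero] at h12
    refine h12.congr fun j => ?_
    ring
  refine ENNReal.le_of_forall_pos_le_add fun δ hδ _ => ?_
  have h13 : ∀ᶠ j in atTop, ENNReal.ofReal (∫ x, h j x * W x ∂leb n) ≤ P + ENNReal.ofReal δ := by
    filter_upwards [hP δ (by exact_mod_cast hδ)] with j hj
    exact (test_le_gradMass M hX (hh j) (hcs j)).trans hj
  have h14 := le_of_tendsto (ENNReal.continuous_ofReal.continuousAt.tendsto.comp hlim) h13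
  have h15 : ENNReal.ofReal ((δ : ℝ≥0) : ℝ) = (δ : ℝ≥0∞) := ENNReal.ofReal_coe_nnreal
  rw [h15] at h14
  have h16 : ∫ x in S, divg M X x * volDensity M x ∂leb n = ∫ x, u x * W x ∂leb n := hval
  rw [h16]
  exact h14

/-- The perimeter of a smooth domain is at most the area of its boundary. -/
theorem perimeter_le_area' (M : RiemMetric n) (D : SmoothDomain n) :
    perimeter M D.carrier ≤ riemArea M D := by
  obtain ⟨e, he⟩ := CH.exists_triangularFrame (old M)
  have hvc := volDensity_cont M
  have hv := volDensity_pos M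
  set D' := oldDomain D with hD'
  have hcar : D'.carrier = D.carrier := rfl
  have hmeas : MeasurableSet D.carrier :=
    (isOpen_lt D.smooth.continuous continuous_const).measurableSet
  have hε : ∀ k : ℕ, 0 < 1 / ((k : ℝ) + 1) := fun k => by positivity
  have hseq : Tendsto (fun k : ℕ => 1 / ((k : ℝ) + 1)) atTop (𝓝[>] 0) := by
    rw [tendsto_nhdsWithin_iff]
    exact ⟨tendsto_one_div_add_atTop_nhds_zero_nat, Eventually.of_forall hε⟩
  have hfin : ∫⁻ x, D.carrier.indicator (fun x => ENNReal.ofReal (volDensity M x)) x ∂leb n ≠ ⊤ := by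
    have := leb_compacts n
    rw [lintegral_indicator hmeas]
    have h1 : IntegrableOn (volDensity M) D.carrier (leb n) :=
      (hvc.continuousOn.integrableOn_compact D'.bdd.isCompact_closure).mono_set subset_closure
    have h2 := h1.hasFiniteIntegral
    rw [hasFiniteIntegral_iff_ofReal (Eventually.of_forall fun x => (hv x).le)] at h2
    exact h2.ne
  refine perimeter_le_of_lim M hmeas
    (h := fun k : ℕ => Vale.Agent.P219.Feps D' (1 / ((k : ℝ) + 1)))
    (fun k => (Vale.Agent.P219.Feps_smooth D' _).of_le (by simp))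
    (fun k => Vale.Agent.P219.Feps_compact D' (hε k)) ?_ ?_
  · have h0 : (0 : ℝ≥0∞) = ∫⁻ _, (0 : ℝ≥0∞) ∂leb n := by simp
    rw [h0]
    refine tendsto_lintegral_of_dominated_convergence'
      (D.carrier.indicator fun x => ENNReal.ofReal (volDensity M x)) ?_ ?_ hfin ?_
    · intro k
      refine Measurable.aemeasurable ?_
      refine (Measurable.mul ?_ hvc.measurable).ennreal_ofReal
      exact (((Vale.Agent.P219.Feps_smooth D' _).continuous.measurable.sub
        (measurable_const.indicator hmeas))).abs
    · intro k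
      refine Eventually.of_forall fun x => ?_
      show ENNReal.ofReal (|Vale.Agent.P219.Feps D' (1 / ((k : ℝ) + 1)) x -
        D.carrier.indicator (fun _ => (1 : ℝ)) x| * volDensity M x) ≤ _
      have h1 := Vale.Agent.P219.Feps_nonneg D' (1 / ((k : ℝ) + 1)) x
      have h2 := Vale.Agent.P219.Feps_le_one D' (1 / ((k : ℝ) + 1)) x
      by_cases hx : x ∈ D.carrier
      · rw [indicator_of_mem hx, indicator_of_mem hx]
        refine ENNReal.ofReal_le_ofReal ?_
        have h3 : |Vale.Agent.P219.Feps D' (1 / ((k : ℝ) + 1)) x - 1| ≤ 1 := by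
          rw [abs_le]
          constructor <;> linarith
        have := mul_le_mul_of_nonneg_right h3 (hv x).le
        rwa [one_mul] at this
      · rw [indicator_of_notMem hx, indicator_of_notMem hx,
          Vale.Agent.P219.Feps_eq_zero D' (hε k) hx]
        simp
    · refine Eventually.of_forall fun x => ?_
      have h1 : Tendsto (fun k : ℕ => Vale.Agent.P219.Feps D' (1 / ((k : ℝ) + 1)) x) atTop
        (𝓝 (D.carrier.indicator (fun _ => 1) x)) := (Vale.Agent.P219.Feps_tendsto D' x).comp hseq
      have h2 := ((h1.sub_const (D.carrier.indicator (fun _ => (1 : ℝ)) x)).abs.mul_const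
        (volDensity M x))
      rw [sub_self, abs_zero, zero_mul] at h2
      have h3 := (ENNReal.continuous_ofReal.tendsto 0).comp h2
      rw [ENNReal.ofReal_zero] at h3
      exact h3
  · intro δ hδ
    have h1 := hseq.eventually (Vale.Agent.P219.Feps_area (old M) e he D' hδ)
    filter_upwards [h1] with k hk
    rw [hD', riemArea_old (frame_of_old he)] at hk
    refine le_trans (le_of_eq ?_) hk
    unfold gradMass leb
    refine lintegral_congr fun x => ?_
    rw [volDensity_old, gradNorm_old (frame_of_old he)
      ((Vale.Agent.P219.Feps_smooth (oldDomain D) _).differentiable (by simp))]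

theorem perimeter_le_area (_hn : 2 ≤ n) {K : ℝ} (_hK : K ≤ 0) (M : RiemMetric n)
    (_hM : GeodesicallyComplete M) (_hs : SecLE M K) (D : SmoothDomain n) :
    perimeter M D.carrier ≤ riemArea M D :=
  perimeter_le_area' M D

end Vale.Agent.P219.Co
end
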