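import Mathlib

/-!
Mollification of a bounded measurable function with compact support, in the form of averages of
translates.
-/

open MeasureTheory Set Filter Topology
open scoped ENNReal ContDiff

namespace Vale.Agent.P219.Co

namespace Moll

open ContinuousLinearMap Convolution

variable {n : ℕ}

/-- the bump of radius `1/(k+1)` -/
noncomputable def bp (n : ℕ) (k : ℕ) : ContDiffBump (0 : EuclideanSpace ℝ (Fin n)) :=
  ⟨1 / (2 * ((k : ℝ) + 1)), 1 / ((k : ℝ) + 1), by positivity, by
    apply one_div_lt_one_div_of_lt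
    · positivity
    · nlinarith [Nat.cast_nonneg (α := ℝ) k]⟩

/-- the normalised bump -/
noncomputable def rho (n k : ℕ) : EuclideanSpace ℝ (Fin n) → ℝ := (bp n k).normed volume

lemma rho_nonneg (k : ℕ) (x) : 0 ≤ rho n k x := (bp n k).nonneg_normed x

lemma rho_cont (k : ℕ) : Continuous (rho n k) := (bp n k).continuous_normed

lemma rho_smooth (k : ℕ) : ContDiff ℝ ∞ (rho n k) := (bp n k).contDiff_normed

lemma rho_neg (k : ℕ) (x) : rho n k (-x) = rho n k x := (bp n k).normed_neg x

lemma rho_int (k : ℕ) : Integrable (rho n k) volume := (bp n k).integrable_normed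

lemma rho_one (k : ℕ) : ∫ x, rho n k x = 1 := (bp n k).integral_normed

lemma rho_cs (k : ℕ) : HasCompactSupport (rho n k) := (bp n k).hasCompactSupport_normed

lemma rho_zero (k : ℕ) {x : EuclideanSpace ℝ (Fin n)} (h : rho n k x ≠ 0) :
    ‖x‖ < 1 / ((k : ℝ) + 1) := by
  have h1 : x ∈ Function.support ((bp n k).normed volume) := h
  rw [(bp n k).support_normed_eq] at h1
  simpa [bp] using h1

/-- the probability measure with density `rho` -/
noncomputable def nu (n k : ℕ) : Measure (EuclideanSpace ℝ (Fin n)) :=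
  volume.withDensity (fun x => ENNReal.ofReal (rho n k x))

lemma nu_prob (k : ℕ) : IsProbabilityMeasure (nu n k) := by
  refine ⟨?_⟩
  unfold nu
  rw [withDensity_apply _ MeasurableSet.univ, Measure.restrict_univ,
    ← ofReal_integral_eq_lintegral_ofReal (rho_int k) (Eventually.of_forall (rho_nonneg k)),
    rho_one, ENNReal.ofReal_one]

lemma nu_ae (k : ℕ) : ∀ᵐ y ∂(nu n k), ‖y‖ < 1 / ((k : ℝ) + 1) := by
  unfold nu
  rw [ae_withDensity_iff (by exact (rho_cont k).measurable.ennreal_ofReal)]
  refine Eventually.of_forall fun x hx => rho_zero k ?_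
  intro h0
  exact hx (by rw [h0, ENNReal.ofReal_zero])

lemma nu_integral (k : ℕ) (w : EuclideanSpace ℝ (Fin n) → ℝ) :
    ∫ y, w y ∂(nu n k) = ∫ y, rho n k y * w y := by
  unfold nu
  rw [integral_withDensity_eq_integral_toReal_smul
    (by exact (rho_cont k).measurable.ennreal_ofReal)
    (Eventually.of_forall fun x => ENNReal.ofReal_lt_top)]
  refine integral_congr_ae (Eventually.of_forall fun x => ?_)
  simp only [smul_eq_mul, ENNReal.toReal_ofReal (rho_nonneg k x)]

lemma nu_conv (k : ℕ) (w : EuclideanSpace ℝ (Fin n) → ℝ) :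
    (fun x => ∫ y, w (x - y) ∂(nu n k)) = (rho n k ⋆[lsmul ℝ ℝ, volume] w) := by
  funext x
  rw [nu_integral, convolution_def]
  rfl

/-- Fubini -/
lemma swap {φ u g : EuclideanSpace ℝ (Fin n) → ℝ} (hφ : Continuous φ) (hφc : HasCompactSupport φ)
    (hneg : ∀ x, φ (-x) = φ x) (hu : Measurable u) (hui : Integrable u volume)
    (hg : Continuous g) (hgc : HasCompactSupport g) :
    ∫ x, (∫ t, φ t * u (x - t)) * g x = ∫ x, u x * (∫ t, φ t * g (x - t)) := by
  have hgi : Integrable g volume := hg.integrable_of_hasCompactSupport hgc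
  obtain ⟨C, hC⟩ := hφc.exists_bound_of_continuous hφ
  have h1 : ∀ x, (∫ t, φ t * u (x - t)) * g x = ∫ y, φ (x - y) * u y * g x := by
    intro x
    rw [← integral_mul_const, ← integral_sub_left_eq_self _ volume x]
    refine integral_congr_ae (Eventually.of_forall fun y => ?_)
    simp only [sub_sub_cancel]
  have h2 : ∀ y, u y * (∫ t, φ t * g (y - t)) = ∫ x, φ (x - y) * u y * g x := by
    intro y
    rw [← integral_const_mul, ← integral_sub_left_eq_self _ volume y]
    refine integral_congr_ae (Eventually.of_forall fun x => ?_)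
    simp only [sub_sub_cancel]
    rw [← neg_sub x y, hneg]
    ring
  simp_rw [h1, h2]
  refine integral_integral_swap (f := fun x y => φ (x - y) * u y * g x) ?_
  have hb : Integrable (fun z : EuclideanSpace ℝ (Fin n) × EuclideanSpace ℝ (Fin n) =>
      (C * ‖g z.1‖) * ‖u z.2‖) (volume.prod volume) :=
    (hgi.norm.const_mul C).mul_prod hui.norm
  refine hb.mono' ?_ (Eventually.of_forall fun z => ?_)
  · refine Measurable.aestronglyMeasurable ?_
    exact ((hφ.measurable.comp (measurable_fst.sub measurable_snd)).mul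
      (hu.comp measurable_snd)).mul (hg.measurable.comp measurable_fst)
  · simp only [Function.uncurry]
    rw [norm_mul, norm_mul]
    have h3 := hC (z.1 - z.2)
    have h4 := norm_nonneg (u z.2)
    have h5 := norm_nonneg (g z.1)
    calc ‖φ (z.1 - z.2)‖ * ‖u z.2‖ * ‖g z.1‖ = ‖φ (z.1 - z.2)‖ * (‖u z.2‖ * ‖g z.1‖) := by ring
      _ ≤ C * (‖u z.2‖ * ‖g z.1‖) := mul_le_mul_of_nonneg_right h3 (mul_nonneg h4 h5)
      _ = C * ‖g z.1‖ * ‖u z.2‖ := by ring

end Moll

open Moll ContinuousLinearMap Convolution in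
theorem mollify {n : ℕ} {u : EuclideanSpace ℝ (Fin n) → ℝ} (hu : Measurable u)
    (hub : ∀ x, |u x| ≤ 1) {L : Set (EuclideanSpace ℝ (Fin n))} (hL : IsCompact L)
    (hu0 : ∀ x, x ∉ L → u x = 0) :
    ∃ (ν : ℕ → Measure (EuclideanSpace ℝ (Fin n))) (f : ℕ → EuclideanSpace ℝ (Fin n) → ℝ),
      (∀ k, IsProbabilityMeasure (ν k)) ∧
      (∀ k : ℕ, ∀ᵐ y ∂ν k, ‖y‖ < 1 / ((k : ℝ) + 1)) ∧
      (∀ k, ContDiff ℝ ∞ (f k)) ∧ (∀ k x, |f k x| ≤ 1) ∧
      (∀ (k : ℕ) x, f k x ≠ 0 → x ∈ Metric.cthickening (1 / ((k : ℝ) + 1)) L) ∧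
      (∀ᵐ x : EuclideanSpace ℝ (Fin n), Tendsto (fun k => f k x) atTop (𝓝 (u x))) ∧
      ∀ (k : ℕ) (w : EuclideanSpace ℝ (Fin n) → ℝ), ContDiff ℝ ∞ w → HasCompactSupport w →
        ContDiff ℝ ∞ (fun x => ∫ y, w (x - y) ∂ν k) ∧
        HasCompactSupport (fun x => ∫ y, w (x - y) ∂ν k) ∧
        ∀ i : Fin n, ∫ x, f k x * fderiv ℝ w x (EuclideanSpace.single i 1) =
          ∫ x, u x * fderiv ℝ (fun x => ∫ y, w (x - y) ∂ν k) x (EuclideanSpace.single i 1) := by
  have hui : Integrable u volume := by
    have h1 : Integrable (L.indicator (fun _ => (1 : ℝ))) (volume : Measure (EuclideanSpace ℝ (Fin n))) :=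
      (integrable_indicator_iff hL.measurableSet).2
        (integrableOn_const hL.measure_lt_top.ne)
    refine h1.mono' hu.aestronglyMeasurable (Eventually.of_forall fun x => ?_)
    by_cases hx : x ∈ L
    · rw [indicator_of_mem hx]; exact hub x
    · rw [indicator_of_notMem hx, hu0 x hx, norm_zero]
  have hul : LocallyIntegrable u volume := hui.locallyIntegrable
  have hr0 : Tendsto (fun k : ℕ => 1 / ((k : ℝ) + 1)) atTop (𝓝 0) :=
    tendsto_one_div_add_atTop_nhds_zero_nat
  refine ⟨nu n, fun k => (rho n k ⋆[lsmul ℝ ℝ, volume] u), nu_prob, nu_ae, ?_, ?_, ?_, ?_, ?_⟩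
  · intro k
    exact (rho_cs k).contDiff_convolution_left _ (rho_smooth k) hul
  · intro k x
    show |(rho n k ⋆[lsmul ℝ ℝ, volume] u) x| ≤ 1
    have e1 : (rho n k ⋆[lsmul ℝ ℝ, volume] u) x = ∫ t, rho n k t * u (x - t) := by
      rw [convolution_def]
      rfl
    rw [e1]
    calc |∫ t, rho n k t * u (x - t)| ≤ ∫ t, rho n k t := by
          rw [← Real.norm_eq_abs]
          refine (norm_integral_le_integral_norm _).trans ?_
          refine integral_mono_of_nonneg (Eventually.of_forall fun t => norm_nonneg _) (rho_int k)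
            (Eventually.of_forall fun t => ?_)
          simp only [norm_mul, Real.norm_eq_abs]
          rw [abs_of_nonneg (rho_nonneg k t)]
          calc rho n k t * |u (x - t)| ≤ rho n k t * 1 :=
                mul_le_mul_of_nonneg_left (hub _) (rho_nonneg k t)
            _ = rho n k t := mul_one _
      _ = 1 := rho_one k
  · intro k x hx
    by_contra hn
    apply hx
    show (rho n k ⋆[lsmul ℝ ℝ, volume] u) x = 0
    rw [convolution_def]
    refine integral_eq_zero_of_ae (Eventually.of_forall fun t => ?_)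
    simp only [lsmul_apply, smul_eq_mul, Pi.zero_apply]
    by_cases ht : rho n k t = 0
    · rw [ht, zero_mul]
    · have h1 := rho_zero k ht
      have h2 : x - t ∉ L := by
        intro h3
        apply hn
        refine Metric.mem_cthickening_of_dist_le x (x - t) _ L h3 ?_
        rw [dist_eq_norm, sub_sub_cancel]
        exact h1.le
      rw [hu0 _ h2, mul_zero]
  · have h1 := ContDiffBump.ae_convolution_tendsto_right_of_locallyIntegrable (μ := volume)
      (φ := bp n) (l := atTop) (K := 2) (g := u) hr0 (Eventually.of_forall fun k => ?_) hul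
    · exact h1
    · simp only [bp]
      have : (0 : ℝ) < (k : ℝ) + 1 := by positivity
      apply le_of_eq
      field_simp
  · intro k w hw hwc
    have e := nu_conv k w
    have hρl : LocallyIntegrable (rho n k) volume := (rho_int k).locallyIntegrable
    refine ⟨?_, ?_, ?_⟩
    · rw [e]
      exact hwc.contDiff_convolution_right _ hρl hw
    · rw [e]
      exact (rho_cs k).convolution _ hwc
    · intro i
      have hw1 : ContDiff ℝ 1 w := hw.of_le (by exact_mod_cast le_top)
      have hdc : Continuous (fderiv ℝ w) := hw1.continuous_fderiv (by norm_num)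
      have hdcs : HasCompactSupport (fderiv ℝ w) := hwc.fderiv ℝ
      have hgc : Continuous (fun a => fderiv ℝ w a (EuclideanSpace.single i 1)) :=
        hdc.clm_apply continuous_const
      have hgs : HasCompactSupport (fun a => fderiv ℝ w a (EuclideanSpace.single i (1 : ℝ))) := by
        refine hdcs.mono' ?_
        intro a ha
        apply subset_tsupport
        intro h0
        apply ha
        simp only [h0]
        rfl
      have hd : ∀ x, fderiv ℝ (fun x => ∫ y, w (x - y) ∂(nu n k)) x (EuclideanSpace.single i 1)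
          = ∫ t, rho n k t * fderiv ℝ w (x - t) (EuclideanSpace.single i 1) := by
        intro x
        rw [e, (hwc.hasFDerivAt_convolution_right (lsmul ℝ ℝ) hρl hw1 x).fderiv,
          convolution_precompR_apply (lsmul ℝ ℝ) hρl hdcs hdc, convolution_def]
        rfl
      simp_rw [hd]
      have h3 := swap (rho_cont k) (rho_cs k) (rho_neg k) hu hui hgc hgs
      rw [← h3]
      rfl

end Vale.Agent.P219.Co
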